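import Mathlib

namespace Vale.Agent.P358T42

open scoped InnerProductSpace

/-- The operators on `E`. -/
abbrev Op (E : Type) [NormedAddCommGroup E] [InnerProductSpace ℂ E] := E →L[ℂ] E

/-- The multilinear maps `Qⁿ → E`. -/
abbrev Mul (n : ℕ) (Q E : Type) [NormedAddCommGroup Q] [InnerProductSpace ℂ Q]
    [NormedAddCommGroup E] [InnerProductSpace ℂ E] := MultilinearMap ℂ (fun _ : Fin n => Q) E

variable {E Q : Type} [NormedAddCommGroup E] [InnerProductSpace ℂ E] [CompleteSpace E]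
  [NormedAddCommGroup Q] [InnerProductSpace ℂ Q] [CompleteSpace Q] {n : ℕ}

/-- The trace. -/
noncomputable def tr (X : Op E) : ℂ := LinearMap.trace ℂ E X.toLinearMap

/-- States: positive operators of trace one. -/
def IsState (ρ : Op E) : Prop := ρ.IsPositive ∧ tr ρ = 1

/-- The von Neumann entropy in bits, `-Tr ρ log₂ ρ`. -/
noncomputable def S (ρ : Op E) : ℝ := -(tr (ρ * cfc (Real.logb 2) ρ)).re

/-- Linear maps on operators. -/
def IsLin (N : Op E → Op E) : Prop := IsLinearMap ℂ N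

/-- Quantum channels, in Kraus form. -/
def IsChannel (N : Op E → Op E) : Prop :=
  ∃ (m : ℕ) (K : Fin m → Op E), ∑ j, star (K j) * K j = 1 ∧ ∀ X, N X = ∑ j, K j * X * star (K j)

/-- The Holevo quantities of the finite ensembles of input states. -/
def holevoSet (N : Op E → Op E) : Set ℝ :=
  {x | ∃ (m : ℕ) (w : Fin m → ℝ) (ρ : Fin m → Op E), (∀ a, 0 ≤ w a) ∧ ∑ a, w a = 1 ∧
    (∀ a, IsState (ρ a)) ∧ x = S (∑ a, w a • N (ρ a)) - ∑ a, w a * S (N (ρ a))}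

/-- The Holevo capacity `χ`. -/
noncomputable def chi (N : Op E → Op E) : ℝ := sSup (holevoSet N)

/-- `E`, with `t u = u₁ ⊗ ⋯ ⊗ uₙ`, is the Hilbert space tensor power `Q^{⊗ n}`. -/
def IsPower (t : Mul n Q E) : Prop :=
  (∃ L : PiTensorProduct ℂ (fun _ : Fin n => Q) ≃ₗ[ℂ] E,
    ∀ u, L (PiTensorProduct.tprod ℂ u) = t u) ∧ ∀ u v, ⟪t u, t v⟫_ℂ = ∏ i, ⟪u i, v i⟫_ℂ

/-- `X = x₁ ⊗ ⋯ ⊗ xₙ`. -/
def IsProd (t : Mul n Q E) (x : Fin n → Op Q) (X : Op E) : Prop :=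
  ∀ u, X (t u) = t fun i => x i (u i)

/-- `N = A^{⊗ n}`: it is linear and maps `x₁ ⊗ ⋯ ⊗ xₙ` to `A x₁ ⊗ ⋯ ⊗ A xₙ`. -/
def IsMapPower (t : Mul n Q E) (A : Op Q → Op Q) (N : Op E → Op E) : Prop :=
  IsLin N ∧ ∀ x X, IsProd t x X → IsProd t (fun i => A (x i)) (N X)

/-- The matrix of an operator on a qubit `Q`, in the orthonormal basis `e`. -/
noncomputable def mat (e : OrthonormalBasis (Fin 2) ℂ Q) (X : Op Q) : Matrix (Fin 2) (Fin 2) ℂ :=
  Matrix.of fun i j => ⟪e i, X (e j)⟫_ℂ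

/-- The matrix `(1 - q, z; z̄, q)`. -/
noncomputable def dm (q : ℝ) (z : ℂ) : Matrix (Fin 2) (Fin 2) ℂ :=
  !![1 - (q : ℂ), z; star z, (q : ℂ)]

/-- `A` is linear and acts on the qubit density matrices as the generalized amplitude-damping
channel. -/
def IsGADC (e : OrthonormalBasis (Fin 2) ℂ Q) (γ ν : ℝ) (A : Op Q → Op Q) : Prop :=
  IsLin A ∧ ∀ ρ q z, IsState ρ → mat e ρ = dm q z →
    mat e (A ρ) = dm ((1 - γ) * q + γ * ν) (√(1 - γ) * z)

/-- The binary entropy in bits. -/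
noncomputable def h₂ (x : ℝ) : ℝ := -(x * Real.logb 2 x) - (1 - x) * Real.logb 2 (1 - x)

end Vale.Agent.P358T42
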