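import Vale.Agent.P358T42.Defs
import Vale.Agent.P358.H888.C

set_option linter.unusedSectionVars false

namespace Vale.Agent.P358T42

open scoped InnerProductSpace ComplexOrder MatrixOrder
open Matrix

variable {E : Type} [NormedAddCommGroup E] [InnerProductSpace ℂ E] [CompleteSpace E]
  {ι : Type} [Fintype ι] [DecidableEq ι]

/-- matrices as operators, in an orthonormal basis -/
noncomputable def ph (b : OrthonormalBasis ι ℂ E) : Matrix ι ι ℂ ≃⋆ₐ[ℂ] Op E :=
  (Matrix.toEuclideanCLM (n := ι) (𝕜 := ℂ)).trans b.repr.symm.conjStarAlgEquiv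

theorem ph_inner (b : OrthonormalBasis ι ℂ E) (M : Matrix ι ι ℂ) (s s' : ι) :
    ⟪b s, ph b M (b s')⟫_ℂ = M s s' := by
  rw [← b.repr_apply_apply]
  show b.repr (b.repr.symm (Matrix.toEuclideanCLM (n := ι) (𝕜 := ℂ) M
    (b.repr.symm.symm (b s')))) s = _
  rw [LinearIsometryEquiv.apply_symm_apply, LinearIsometryEquiv.symm_symm, b.repr_self]
  show (M *ᵥ (EuclideanSpace.single s' (1 : ℂ)).ofLp) s = _
  simp

theorem ph_symm_apply (b : OrthonormalBasis ι ℂ E) (X : Op E) (s s' : ι) :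
    (ph b).symm X s s' = ⟪b s, X (b s')⟫_ℂ := by
  rw [← ph_inner b ((ph b).symm X), StarAlgEquiv.apply_symm_apply]

theorem ph_inj (b : OrthonormalBasis ι ℂ E) {M M' : Matrix ι ι ℂ} (h : ph b M = ph b M') :
    M = M' := (ph b).injective h

theorem ph_surj (b : OrthonormalBasis ι ℂ E) (X : Op E) : ∃ M, ph b M = X :=
  ⟨(ph b).symm X, StarAlgEquiv.apply_symm_apply _ _⟩

theorem tr_ph (b : OrthonormalBasis ι ℂ E) (M : Matrix ι ι ℂ) : tr (ph b M) = M.trace := by
  have := b.toBasis.finiteDimensional_of_finite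
  rw [tr, LinearMap.trace_eq_sum_inner _ b, Matrix.trace]
  exact Finset.sum_congr rfl fun i _ => ph_inner b M i i

theorem pos_ph (b : OrthonormalBasis ι ℂ E) (M : Matrix ι ι ℂ) :
    (ph b M).IsPositive ↔ M.PosSemidef := by
  rw [← ContinuousLinearMap.nonneg_iff_isPositive, ← Matrix.nonneg_iff_posSemidef,
    CStarAlgebra.nonneg_iff_eq_star_mul_self, CStarAlgebra.nonneg_iff_eq_star_mul_self]
  constructor
  · rintro ⟨x, hx⟩
    refine ⟨(ph b).symm x, ph_inj b ?_⟩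
    rw [hx, map_mul, map_star, StarAlgEquiv.apply_symm_apply]
  · rintro ⟨x, rfl⟩
    exact ⟨ph b x, by rw [map_mul, map_star]⟩

theorem state_ph (b : OrthonormalBasis ι ℂ E) (M : Matrix ι ι ℂ) :
    IsState (ph b M) ↔ P358.IsState M := by
  rw [IsState, P358.IsState, pos_ph, tr_ph]

theorem trace_cfc {M : Matrix ι ι ℂ} (h : M.IsHermitian) (f : ℝ → ℝ) :
    (cfc f M).trace = ∑ i, (f (h.eigenvalues i) : ℂ) := by
  rw [h.cfc_eq, Matrix.IsHermitian.cfc, Unitary.conjStarAlgAut_apply, Matrix.trace_mul_comm,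
    ← mul_assoc]
  simp

theorem S_ph (b : OrthonormalBasis ι ℂ E) (M : Matrix ι ι ℂ) : S (ph b M) = P358.entropy M := by
  have hc : ∀ f : ℝ → ℝ, ContinuousOn f (spectrum ℝ M) := fun f =>
    M.finite_real_spectrum.continuousOn f
  by_cases h : M.IsHermitian
  · have hs : IsSelfAdjoint M := h
    have hφ : Continuous (ph b) :=
      LinearMap.continuous_of_finiteDimensional (ph b).toAlgEquiv.toLinearMap
    have h1 : ph b (cfc (Real.logb 2) M) = cfc (Real.logb 2) (ph b M) :=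
      StarAlgHomClass.map_cfc (S := ℂ) (ph b) (Real.logb 2) M (hc _) hφ hs (hs.map (ph b))
    have h2 : M * cfc (Real.logb 2) M = cfc (fun x : ℝ => x * Real.logb 2 x) M := by
      rw [cfc_mul (fun x : ℝ => x) (Real.logb 2) M (hc _) (hc _), cfc_id' ℝ M hs]
    rw [S, ← h1, ← map_mul, tr_ph, h2, trace_cfc h, P358.entropy, dif_pos h, Complex.re_sum,
      ← Finset.sum_neg_distrib]
    exact Finset.sum_congr rfl fun i _ => by rw [Complex.ofReal_re]
  · have hs : ¬ IsSelfAdjoint (ph b M) := fun hs => h (by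
      have := hs.map (ph b).symm
      rw [StarAlgEquiv.symm_apply_apply] at this
      exact this)
    rw [S, cfc_apply_of_not_predicate _ hs, mul_zero, P358.entropy, dif_neg h]
    simp [tr]

theorem ph_sum (b : OrthonormalBasis ι ℂ E) {m : ℕ} (w : Fin m → ℝ) (M : Fin m → Matrix ι ι ℂ) :
    ph b (∑ a, (w a : ℂ) • M a) = ∑ a, w a • ph b (M a) := by
  rw [map_sum]
  exact Finset.sum_congr rfl fun a _ => by rw [map_smul, Complex.coe_smul]

theorem holevoSet_eq (b : OrthonormalBasis ι ℂ E) {N : Op E → Op E}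
    {Φ : Matrix ι ι ℂ →ₗ[ℂ] Matrix ι ι ℂ} (h : ∀ M, N (ph b M) = ph b (Φ M)) :
    holevoSet N = P358.holevoSet Φ := by
  ext x
  constructor
  · rintro ⟨m, w, ρ, hw, hw1, hρ, rfl⟩
    obtain ⟨σ, rfl⟩ : ∃ σ : Fin m → Matrix ι ι ℂ, ρ = fun a => ph b (σ a) :=
      ⟨fun a => (ph b).symm (ρ a), by simp⟩
    refine ⟨m, w, σ, hw, hw1, fun a => (state_ph b _).1 (hρ a), ?_⟩
    simp only [h, S_ph, ← ph_sum]
  · rintro ⟨m, w, σ, hw, hw1, hσ, rfl⟩
    refine ⟨m, w, fun a => ph b (σ a), hw, hw1, fun a => (state_ph b _).2 (hσ a), ?_⟩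
    simp only [h, S_ph, ← ph_sum]

theorem isChannel_of (b : OrthonormalBasis ι ℂ E) {N : Op E → Op E}
    {Φ : Matrix ι ι ℂ →ₗ[ℂ] Matrix ι ι ℂ} (h : ∀ M, N (ph b M) = ph b (Φ M))
    (hΦ : P358.IsChannel Φ) : IsChannel N := by
  obtain ⟨m, K, h1, h2⟩ := hΦ
  refine ⟨m, fun j => ph b (K j), ?_, fun X => ?_⟩
  · have := congrArg (ph b) h1
    rw [map_sum, map_one] at this
    rw [← this]
    exact Finset.sum_congr rfl fun j _ => by
      rw [map_mul, ← Matrix.star_eq_conjTranspose, map_star]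
  · obtain ⟨M, rfl⟩ := ph_surj b X
    rw [h, h2, map_sum]
    exact Finset.sum_congr rfl fun j _ => by
      rw [map_mul, map_mul, ← Matrix.star_eq_conjTranspose, map_star]

/-- a map on matrices as a map on operators -/
noncomputable def lft (b : OrthonormalBasis ι ℂ E) (Φ : Matrix ι ι ℂ →ₗ[ℂ] Matrix ι ι ℂ) :
    Op E →ₗ[ℂ] Op E :=
  (ph b).toAlgEquiv.toLinearMap ∘ₗ Φ ∘ₗ (ph b).symm.toAlgEquiv.toLinearMap

theorem lft_ph (b : OrthonormalBasis ι ℂ E) (Φ : Matrix ι ι ℂ →ₗ[ℂ] Matrix ι ι ℂ)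
    (M : Matrix ι ι ℂ) : lft b Φ (ph b M) = ph b (Φ M) := by
  show ph b (Φ ((ph b).symm (ph b M))) = _
  rw [StarAlgEquiv.symm_apply_apply]

end Vale.Agent.P358T42
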