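import Vale.Agent.P358T42.Kit

set_option linter.unusedSectionVars false

namespace Vale.Agent.P358T42

open scoped InnerProductSpace ComplexOrder
open Matrix

variable {E Q : Type} [NormedAddCommGroup E] [InnerProductSpace ℂ E] [CompleteSpace E]
  [NormedAddCommGroup Q] [InnerProductSpace ℂ Q] [CompleteSpace Q] {n : ℕ}
  (e2 : OrthonormalBasis (Fin 2) ℂ Q)

theorem exists_basis {t : Mul n Q E} (ht : IsPower t) :
    ∃ b : OrthonormalBasis (Fin n → Fin 2) ℂ E, ∀ s, b s = t fun i => e2 (s i) := by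
  obtain ⟨L, hL⟩ := ht.1
  let B := (Basis.piTensorProduct fun _ : Fin n => e2.toBasis).map L
  have hB : ∀ s, B s = t fun i => e2 (s i) := fun s => by
    simp [B, Basis.piTensorProduct_apply, hL]
  have ho : Orthonormal ℂ B := by
    rw [orthonormal_iff_ite]
    intro s s'
    rw [hB, hB, ht.2]
    simp only [orthonormal_iff_ite.1 e2.orthonormal]
    rw [Finset.prod_boole]
    simp [funext_iff]
  exact ⟨B.toOrthonormalBasis ho, fun s => by simp [hB]⟩

include e2 in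
theorem exists_prod {t : Mul n Q E} (ht : IsPower t)
    (x : Fin n → Op Q) : ∃ X, IsProd t x X := by
  obtain ⟨b, -⟩ := exists_basis e2 ht
  have := b.toBasis.finiteDimensional_of_finite
  obtain ⟨e, he⟩ := ht.1
  refine ⟨LinearMap.toContinuousLinearMap
    (e.conj (PiTensorProduct.map fun i => (x i).toLinearMap)), fun u => ?_⟩
  have h1 : e.symm (t u) = PiTensorProduct.tprod ℂ u := by
    rw [LinearEquiv.symm_apply_eq, he]
  show e (PiTensorProduct.map (fun i => (x i).toLinearMap) (e.symm (t u))) = _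
  rw [h1, PiTensorProduct.map_tprod, he]
  rfl

theorem prod_eq {t : Mul n Q E} (ht : IsPower t)
    {b : OrthonormalBasis (Fin n → Fin 2) ℂ E} (hb : ∀ s, b s = t fun i => e2 (s i))
    {m : Fin n → Matrix (Fin 2) (Fin 2) ℂ} {X : Op E} (hX : IsProd t (fun i => ph e2 (m i)) X) :
    X = ph b (P358.prodM m) := by
  obtain ⟨M, rfl⟩ := ph_surj b X
  congr 1
  ext s s'
  rw [← ph_inner b M, hb, hb, hX, ht.2, P358.prodM_apply]
  exact Finset.prod_congr rfl fun i _ => ph_inner e2 _ _ _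

theorem isProd_iff {t : Mul n Q E} (ht : IsPower t)
    {b : OrthonormalBasis (Fin n → Fin 2) ℂ E} (hb : ∀ s, b s = t fun i => e2 (s i))
    (m : Fin n → Matrix (Fin 2) (Fin 2) ℂ) (X : Op E) :
    IsProd t (fun i => ph e2 (m i)) X ↔ X = ph b (P358.prodM m) := by
  refine ⟨prod_eq e2 ht hb, ?_⟩
  rintro rfl
  obtain ⟨X, hX⟩ := exists_prod e2 ht fun i => ph e2 (m i)
  rwa [← prod_eq e2 ht hb hX]

theorem fam_surj (x : Fin n → Op Q) :
    ∃ m : Fin n → Matrix (Fin 2) (Fin 2) ℂ, x = fun i => ph e2 (m i) :=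
  ⟨fun i => (ph e2).symm (x i), by simp⟩

theorem isMapPower_iff {t : Mul n Q E} (ht : IsPower t)
    {b : OrthonormalBasis (Fin n → Fin 2) ℂ E} (hb : ∀ s, b s = t fun i => e2 (s i))
    (Φ : Matrix (Fin 2) (Fin 2) ℂ →ₗ[ℂ] Matrix (Fin 2) (Fin 2) ℂ) (N : Op E → Op E) :
    IsMapPower t (lft e2 Φ) N ↔ N = lft b (P358.tensorPower Φ n) := by
  constructor
  · rintro ⟨hl, h⟩
    obtain ⟨N, rfl⟩ : ∃ N' : Op E →ₗ[ℂ] Op E, N = N' := ⟨IsLinearMap.mk' N hl, rfl⟩
    have h1 : ∀ m : Fin n → Matrix (Fin 2) (Fin 2) ℂ, N (ph b (P358.prodM m)) =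
        lft b (P358.tensorPower Φ n) (ph b (P358.prodM m)) := fun m => by
      have h2 := h _ _ ((isProd_iff e2 ht hb m _).2 rfl)
      simp only [lft_ph] at h2
      rw [prod_eq e2 ht hb h2, lft_ph, P358.tensorPower_prodM]
    funext X
    obtain ⟨M, rfl⟩ := ph_surj b X
    have h3 : M = ∑ s, ∑ s', M s s' •
        P358.prodM fun i => (Matrix.single (s i) (s' i) 1 : Matrix (Fin 2) (Fin 2) ℂ) := by
      conv_lhs => rw [Matrix.matrix_eq_sum_single M]
      refine Finset.sum_congr rfl fun s _ => Finset.sum_congr rfl fun s' _ => ?_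
      ext y y'
      simp only [Matrix.single_apply, Matrix.smul_apply, P358.prodM_apply, Finset.prod_boole,
        smul_eq_mul, funext_iff, Finset.mem_univ, forall_true_left, forall_and, mul_ite, mul_one,
        mul_zero]
    rw [h3]
    simp only [map_sum, map_smul, h1]
  · rintro rfl
    refine ⟨LinearMap.isLinear _, fun x X hX => ?_⟩
    obtain ⟨m, rfl⟩ := fam_surj e2 x
    rw [prod_eq e2 ht hb hX]
    simp only [lft_ph]
    rw [isProd_iff e2 ht hb, P358.tensorPower_prodM]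

include e2 in
theorem exists_power (n : ℕ) : ∃ t : Mul n Q (EuclideanSpace ℂ (Fin n → Fin 2)), IsPower t := by
  let B := Basis.piTensorProduct fun _ : Fin n => e2.toBasis
  let e := B.equiv (EuclideanSpace.basisFun (Fin n → Fin 2) ℂ).toBasis (Equiv.refl _)
  refine ⟨e.toLinearMap.compMultilinearMap (PiTensorProduct.tprod ℂ), ⟨e, fun _ => rfl⟩,
    fun u v => ?_⟩
  have h : ∀ (u : Fin n → Q) (s : Fin n → Fin 2),
      e (PiTensorProduct.tprod ℂ u) s = ∏ i, e2.repr (u i) (s i) := fun u s => by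
    have h1 : (EuclideanSpace.basisFun (Fin n → Fin 2) ℂ).toBasis = B.map e := by
      ext1 s
      simp [e]
    have h2 : e (PiTensorProduct.tprod ℂ u) s =
        (EuclideanSpace.basisFun (Fin n → Fin 2) ℂ).toBasis.repr
          (e (PiTensorProduct.tprod ℂ u)) s := by simp
    rw [h2, h1]
    simp [B, Basis.piTensorProduct_repr_tprod_apply]
  show ⟪e (PiTensorProduct.tprod ℂ u), e (PiTensorProduct.tprod ℂ v)⟫_ℂ = _
  simp only [← e2.repr.inner_map_map (u _) (v _)]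
  simp only [PiLp.inner_apply, h, RCLike.inner_apply, map_prod]
  rw [Finset.prod_univ_sum, Fintype.piFinset_univ]
  exact Finset.sum_congr rfl fun s _ => by rw [Finset.prod_mul_distrib]

theorem mat_ph (M : Matrix (Fin 2) (Fin 2) ℂ) : mat e2 (ph e2 M) = M := by
  ext i j
  exact ph_inner e2 M i j

theorem exists_dm {ρ : Op Q} (h : IsState ρ) : ∃ q z, mat e2 ρ = dm q z := by
  obtain ⟨M, rfl⟩ := ph_surj e2 ρ
  obtain ⟨h1, h2⟩ := (state_ph e2 M).1 h
  refine ⟨(M 1 1).re, M 0 1, ?_⟩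
  rw [mat_ph, dm]
  have h3 : ((M 1 1).re : ℂ) = M 1 1 := Complex.conj_eq_iff_re.1 (h1.1.apply 1 1)
  have h4 : star (M 0 1) = M 1 0 := h1.1.apply 1 0
  rw [Matrix.trace_fin_two] at h2
  rw [h3, h4, ← h2, add_sub_cancel_right]
  exact Matrix.eta_fin_two M

theorem gadc_dm (γ ν q : ℝ) (z : ℂ) :
    P358.gadc γ ν (dm q z) = dm ((1 - γ) * q + γ * ν) (√(1 - γ) * z) := by
  show P358.gadcFun γ ν _ = _
  ext i j
  fin_cases i <;> fin_cases j <;> simp [dm, P358.gadcFun, Matrix.trace_fin_two]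

theorem state_dm {q : ℝ} {z : ℂ} (a b : ℂ) (h1 : a * starRingEnd ℂ a = 1 - q)
    (h2 : a * starRingEnd ℂ b = z) (h3 : b * starRingEnd ℂ b = q) :
    IsState (ph e2 (dm q z)) := by
  rw [state_ph, dm]
  constructor
  · have : !![1 - (q : ℂ), z; star z, (q : ℂ)] = !![a, 0; b, 0] * !![a, 0; b, 0]ᴴ := by
      rw [← h1, ← h2, ← h3]
      ext i j
      fin_cases i <;> fin_cases j <;> simp [Matrix.mul_apply, Fin.sum_univ_two, mul_comm]
    rw [this]
    exact Matrix.posSemidef_self_mul_conjTranspose _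
  · simp [Matrix.trace_fin_two]

theorem isGADC_iff (γ ν : ℝ) (A : Op Q → Op Q) :
    IsGADC e2 γ ν A ↔ A = lft e2 (P358.gadc γ ν) := by
  constructor
  · rintro ⟨hl, h⟩
    obtain ⟨A, rfl⟩ : ∃ A' : Op Q →ₗ[ℂ] Op Q, A = A' := ⟨IsLinearMap.mk' A hl, rfl⟩
    have k : ∀ q z, IsState (ph e2 (dm q z)) →
        A (ph e2 (dm q z)) = lft e2 (P358.gadc γ ν) (ph e2 (dm q z)) := fun q z hs => by
      have h1 := h _ q z hs (mat_ph e2 _)
      obtain ⟨M, hM⟩ := ph_surj e2 (A (ph e2 (dm q z)))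
      rw [← hM, mat_ph] at h1
      rw [← hM, h1, lft_ph, gadc_dm]
    have k0 := k 0 0 (state_dm e2 1 0 (by simp) (by simp) (by simp))
    have k1 := k 1 0 (state_dm e2 0 1 (by simp) (by simp) (by simp))
    have k2 := k (16 / 25) (12 / 25) (state_dm e2 ((3 / 5 : ℝ) : ℂ) ((4 / 5 : ℝ) : ℂ)
      (by rw [Complex.conj_ofReal]; push_cast; norm_num)
      (by rw [Complex.conj_ofReal]; push_cast; norm_num)
      (by rw [Complex.conj_ofReal]; push_cast; norm_num))
    have k3 := k (16 / 25) (12 / 25 * Complex.I) (state_dm e2 (((3 / 5 : ℝ) : ℂ) * Complex.I)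
      ((4 / 5 : ℝ) : ℂ)
      (by
        rw [map_mul, Complex.conj_ofReal, Complex.conj_I]
        push_cast
        linear_combination (-(9 / 25) : ℂ) * Complex.I_mul_I)
      (by rw [Complex.conj_ofReal]; push_cast; ring)
      (by rw [Complex.conj_ofReal]; push_cast; norm_num))
    funext X
    obtain ⟨M, rfl⟩ := ph_surj e2 X
    obtain ⟨c, hc⟩ : ∃ c : ℂ, c = (M 0 1 + M 1 0) * (25 / 24) := ⟨_, rfl⟩
    obtain ⟨d, hd⟩ : ∃ d : ℂ, d = (M 1 0 - M 0 1) * (25 / 24) * Complex.I := ⟨_, rfl⟩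
    have h5 : ph e2 M = (M 0 0 - 9 / 25 * (c + d)) • ph e2 (dm 0 0) +
        (M 1 1 - 16 / 25 * (c + d)) • ph e2 (dm 1 0) + c • ph e2 (dm (16 / 25) (12 / 25)) +
        d • ph e2 (dm (16 / 25) (12 / 25 * Complex.I)) := by
      simp only [← map_smul, ← map_add]
      congr 1
      ext i j
      fin_cases i <;> fin_cases j <;> simp [dm]
      · ring
      · rw [hc, hd]
        linear_combination (-(M 1 0 - M 0 1) / 2) * Complex.I_mul_I
      · rw [hc, hd]
        linear_combination ((M 1 0 - M 0 1) / 2) * Complex.I_mul_I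
      · ring
    rw [h5]
    simp only [map_add, map_smul, k0, k1, k2, k3]
  · rintro rfl
    refine ⟨LinearMap.isLinear _, fun ρ q z _ h => ?_⟩
    obtain ⟨M, rfl⟩ := ph_surj e2 ρ
    rw [mat_ph] at h
    rw [lft_ph, mat_ph, h, gadc_dm]

theorem main (e : OrthonormalBasis (Fin 2) ℂ Q) (γ ν : ℝ) (hγ : γ ∈ Set.Icc (0 : ℝ) 1)
    (hν : ν ∈ Set.Icc (0 : ℝ) 1) :
    (∀ ρ : Op Q, IsState ρ → ∃ q z, mat e ρ = dm q z) ∧ (∃! A, IsGADC e γ ν A) ∧
    (∀ n : ℕ, ∃ (E : Type) (_ : NormedAddCommGroup E) (_ : InnerProductSpace ℂ E)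
      (_ : CompleteSpace E) (t : Mul n Q E), IsPower t) ∧
    ∀ A, IsGADC e γ ν A → IsChannel A ∧ BddAbove (holevoSet A) ∧
      ∀ (E : ℕ → Type) [∀ n, NormedAddCommGroup (E n)] [∀ n, InnerProductSpace ℂ (E n)]
        [∀ n, CompleteSpace (E n)] (t : ∀ n, Mul n Q (E n)), (∀ n, IsPower (t n)) →
        (∀ n, FiniteDimensional ℂ (E n) ∧ (∀ x, ∃! X, IsProd (t n) x X) ∧
          ∃! N, IsMapPower (t n) A N) ∧
        ∀ N : ∀ n, Op (E n) → Op (E n), (∀ n, IsMapPower (t n) A (N n)) →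
          (∀ n, IsChannel (N n) ∧ BddAbove (holevoSet (N n)) ∧ chi (N n) = n * chi A) ∧
          ∃ C : ℝ, IsLUB {x | ∃ n : ℕ, 1 ≤ n ∧ x = chi (N n) / n} C ∧ C = chi A ∧
            IsGreatest ((fun q : ℝ => h₂ ((1 - γ) * q + γ * ν) -
              h₂ ((1 + √((1 - 2 * ((1 - γ) * q + γ * ν)) ^ 2 + 4 * (1 - γ) * (q * (1 - q)))) / 2))
              '' Set.Icc 0 1) C := by
  refine ⟨fun ρ => exists_dm e, ⟨_, (isGADC_iff e γ ν _).2 rfl, fun A hA => (isGADC_iff e γ ν A).1 hA⟩,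
    fun n => ⟨_, _, _, inferInstance, exists_power e n⟩, fun A hA => ?_⟩
  obtain rfl := (isGADC_iff e γ ν A).1 hA
  have hch := P358.gadc_isChannel hγ hν
  have h1 := holevoSet_eq e (lft_ph e (P358.gadc γ ν))
  have h2 : chi (lft e (P358.gadc γ ν)) = P358.holevo (P358.gadc γ ν) := by
    rw [chi, h1, P358.holevo]
  refine ⟨isChannel_of e (lft_ph e _) hch, h1 ▸ hch.bddAbove, fun E _ _ _ t ht => ?_⟩
  choose b hb using fun n => exists_basis e (ht n)
  refine ⟨fun n => ⟨(b n).toBasis.finiteDimensional_of_finite, fun x => ?_,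
    _, (isMapPower_iff e (ht n) (hb n) _ _).2 rfl,
    fun N hN => (isMapPower_iff e (ht n) (hb n) _ N).1 hN⟩, fun N hN => ?_⟩
  · obtain ⟨m, rfl⟩ := fam_surj e x
    exact ⟨_, (isProd_iff e (ht n) (hb n) m _).2 rfl, fun X hX => prod_eq e (ht n) (hb n) hX⟩
  have h3 : ∀ n, N n = lft (b n) (P358.tensorPower (P358.gadc γ ν) n) := fun n =>
    (isMapPower_iff e (ht n) (hb n) _ _).1 (hN n)
  have h4 : ∀ n, holevoSet (N n) = P358.holevoSet (P358.tensorPower (P358.gadc γ ν) n) :=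
    fun n => by rw [h3]; exact holevoSet_eq (b n) (lft_ph (b n) _)
  have h5 : ∀ n, chi (N n) = n * chi (lft e (P358.gadc γ ν)) := fun n => by
    rw [h2, ← P358.holevo_tensorPower hγ hν, chi, h4, P358.holevo]
  refine ⟨fun n => ⟨?_, ?_, h5 n⟩, _, ?_, rfl, ?_⟩
  · rw [h3]
    exact isChannel_of (b n) (lft_ph (b n) _) (hch.tensorPower n)
  · rw [h4]
    exact (hch.tensorPower n).bddAbove
  · refine IsGreatest.isLUB ⟨⟨1, le_rfl, by rw [h5]; simp⟩, ?_⟩
    rintro x ⟨n, hn, rfl⟩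
    have hn' : (0 : ℝ) < n := by exact_mod_cast hn
    rw [h5, mul_div_cancel_left₀ _ hn'.ne']
  · rw [h2]
    exact P358.holevo_formula hγ hν

end Vale.Agent.P358T42
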